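import Vale.Agent.P032.Words.H670.Split

/-!
# P032: hexagons around a centre with six colours, box tables (W30, data A)
-/

open Vale.Agent.P032.Words.Trie

namespace Vale.Agent.P032.H800.W30.A

/-- the data -/
def D : Dat where
  A := 7
  N := 16
  nb := [96, 88, 56, 70, 38, 85, 43]
  op := [127, 127, 127, 127, 127, 127, 127]
  nbT := [96, 49240, 41016, 4166, 2086, 21845, 10923, 53312, 43040, 20544, 10272, 54608, 43688, 21828,
10914, 6534]
  opT := [65535, 16383, 24575, 61439, 63487, 43775, 54655, 65471, 65503, 65471, 65503, 65455, 65495,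
65467, 65501, 65529]
  PL := [[0], [1], [2], [3], [4], [5], [6], [0, 1], [0, 2], [0, 3], [0, 4], [1, 5], [2, 6], [3, 5], [4,
6], [3, 4]]
  L := [3, 5, 9, 18, 34, 20, 40]
  P := [3, 5, 9, 18, 34, 20, 40, 7, 11, 19, 35, 21, 41, 22, 42, 50]
  r := 0
  tie := [0, 0, 0, 0, 0, 0, 0, 0, 0, 0, 0, 0, 0, 0, 0, 0]

/-- changes of the value at a tie -/
def J : List (List ℕ) := [[]]

/-- reachable values -/
def R : List (List ℕ) := [[1], [2], [4], [8], [0x10], [0x20], [0x40], [0x80], [0x100], [0x200], [0x400], [0x800],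
[0x1000], [0x2000], [0x4000], [0x8000], [0x10000], [0x20000], [0x40000], [0x80000], [0x100000],
[0x200000], [0x400000], [0x800000], [0x1000000], [0x2000000], [0x4000000], [0x8000000],
[0x10000000], [0x20000000], [0x40000000], [0x80000000], [0x100000000], [0x200000000],
[0x400000000], [0x800000000], [0x1000000000], [0x2000000000], [0x4000000000], [0x8000000000],
[0x10000000000], [0x20000000000], [0x40000000000], [0x80000000000], [0x100000000000],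
[0x200000000000], [0x400000000000], [0x800000000000], [0x1000000000000], [0x2000000000000],
[0x4000000000000], [0x8000000000000], [0x10000000000000], [0x20000000000000],
[0x40000000000000], [0x80000000000000], [0x100000000000000], [0x200000000000000],
[0x400000000000000], [0x800000000000000], [0x1000000000000000], [0x2000000000000000],
[0x4000000000000000], [0x8000000000000000], [0x10000000000000000], [0x20000000000000000],
[0x40000000000000000], [0x80000000000000000], [0x100000000000000000], [0x200000000000000000],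
[0x400000000000000000], [0x800000000000000000], [0x1000000000000000000],
[0x2000000000000000000]]

noncomputable def q0 : Tr := .c 5 (.l 0) (.c 6 (.l 1) .e)
noncomputable def q1 : Tr := .c 5 (.l 0) .e
noncomputable def r0 : Tr := .c 0 q0 (.c 2 q1 (.c 4 q1 (.c 6 q1 .e)))
noncomputable def q2 : Tr := .c 5 (.l 2) (.c 6 (.l 3) .e)
noncomputable def q3 : Tr := .c 6 (.l 3) .e
noncomputable def r1 : Tr := .c 0 q2 (.c 1 q3 (.c 3 q3 (.c 5 q3 .e)))
noncomputable def t0 : Tr := .c 5 r0 (.c 6 r1 .e)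
noncomputable def q4 : Tr := .c 6 (.l 4) .e
noncomputable def r2 : Tr := .c 1 q4 (.c 2 q1 (.c 6 q1 .e))
noncomputable def r3 : Tr := .c 1 q4 (.c 2 q1 (.c 5 q4 .e))
noncomputable def t1 : Tr := .c 3 r2 (.c 4 r3 (.c 5 r0 .e))
noncomputable def q5 : Tr := .c 6 (.l 5) .e
noncomputable def r4 : Tr := .c 3 q5 (.c 4 q1 (.c 6 q1 .e))
noncomputable def q6 : Tr := .c 6 (.l 6) .e
noncomputable def q7 : Tr := .c 5 (.l 7) .e
noncomputable def r5 : Tr := .c 3 q6 (.c 4 q7 (.c 5 q6 .e))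
noncomputable def t2 : Tr := .c 1 r4 (.c 2 r5 (.c 5 r0 .e))
noncomputable def q8 : Tr := .c 6 (.l 8) .e
noncomputable def r6 : Tr := .c 5 q8 (.c 6 q1 .e)
noncomputable def t3 : Tr := .c 0 r6 (.c 1 r4 (.c 3 r2 (.c 5 r0 .e)))
noncomputable def q9 : Tr := .c 5 (.l 9) (.c 6 (.l 10) .e)
noncomputable def q10 : Tr := .c 5 (.l 9) .e
noncomputable def r7 : Tr := .c 0 q9 (.c 2 q10 (.c 4 q10 (.c 6 q10 .e)))
noncomputable def q11 : Tr := .c 5 (.l 11) (.c 6 (.l 12) .e)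
noncomputable def q12 : Tr := .c 6 (.l 12) .e
noncomputable def r8 : Tr := .c 0 q11 (.c 1 q12 (.c 3 q12 (.c 5 q12 .e)))
noncomputable def t4 : Tr := .c 5 r7 (.c 6 r8 .e)
noncomputable def q13 : Tr := .c 5 (.l 13) .e
noncomputable def r9 : Tr := .c 1 q12 (.c 2 q13 (.c 6 q13 .e))
noncomputable def r10 : Tr := .c 1 q12 (.c 2 q13 (.c 5 q12 .e))
noncomputable def t5 : Tr := .c 3 r9 (.c 4 r10 (.c 6 r8 .e))
noncomputable def q14 : Tr := .c 6 (.l 14) .e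
noncomputable def q15 : Tr := .c 5 (.l 15) .e
noncomputable def r11 : Tr := .c 3 q14 (.c 4 q15 (.c 6 q15 .e))
noncomputable def q16 : Tr := .c 5 (.l 16) .e
noncomputable def r12 : Tr := .c 3 q12 (.c 4 q16 (.c 5 q12 .e))
noncomputable def t6 : Tr := .c 1 r11 (.c 2 r12 (.c 6 r8 .e))
noncomputable def q17 : Tr := .c 5 (.l 17) .e
noncomputable def r13 : Tr := .c 5 q12 (.c 6 q17 .e)
noncomputable def t7 : Tr := .c 0 r13 (.c 2 r12 (.c 4 r10 (.c 6 r8 .e)))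
noncomputable def q18 : Tr := .c 3 (.l 12) (.c 4 (.l 12) (.c 6 (.l 12) .e))
noncomputable def q19 : Tr := .c 3 (.l 18) (.c 4 (.l 18) .e)
noncomputable def q20 : Tr := .c 3 (.l 18) .e
noncomputable def r14 : Tr := .c 1 q18 (.c 2 q19 (.c 6 q20 .e))
noncomputable def q21 : Tr := .c 4 (.l 12) (.c 6 (.l 12) .e)
noncomputable def r15 : Tr := .c 1 q18 (.c 2 q19 (.c 5 q21 .e))
noncomputable def r16 : Tr := .c 0 q12 (.c 1 q18 (.c 3 q12 (.c 5 q21 .e)))
noncomputable def t8 : Tr := .c 3 r14 (.c 4 r15 (.c 6 r16 .e))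
noncomputable def q22 : Tr := .c 3 (.l 19) (.c 4 (.l 19) (.c 6 (.l 19) .e))
noncomputable def q23 : Tr := .c 3 (.l 20) (.c 4 (.l 20) .e)
noncomputable def q24 : Tr := .c 3 (.l 20) .e
noncomputable def r17 : Tr := .c 1 q22 (.c 2 q23 (.c 6 q24 .e))
noncomputable def q25 : Tr := .c 4 (.l 19) (.c 6 (.l 19) .e)
noncomputable def r18 : Tr := .c 1 q22 (.c 2 q23 (.c 5 q25 .e))
noncomputable def q26 : Tr := .c 6 (.l 21) .e
noncomputable def r19 : Tr := .c 0 q26 (.c 2 q23 (.c 6 q24 .e))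
noncomputable def t9 : Tr := .c 3 r17 (.c 4 r18 (.c 5 r19 .e))
noncomputable def q27 : Tr := .c 4 (.l 22) (.c 6 (.l 22) .e)
noncomputable def r20 : Tr := .c 5 q27 (.c 6 q24 .e)
noncomputable def q28 : Tr := .c 6 (.l 23) .e
noncomputable def r21 : Tr := .c 3 q28 (.c 6 q24 .e)
noncomputable def t10 : Tr := .c 0 r20 (.c 1 r21 (.c 3 r17 (.c 5 r19 .e)))
noncomputable def q29 : Tr := .c 3 (.l 24) .e
noncomputable def r22 : Tr := .c 5 q21 (.c 6 q29 .e)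
noncomputable def r23 : Tr := .c 3 q12 (.c 5 q21 .e)
noncomputable def t11 : Tr := .c 0 r22 (.c 2 r23 (.c 4 r15 (.c 6 r16 .e)))
noncomputable def q30 : Tr := .c 6 (.l 10) .e
noncomputable def q31 : Tr := .c 3 (.l 25) (.c 4 (.l 25) .e)
noncomputable def q32 : Tr := .c 3 (.l 25) .e
noncomputable def r24 : Tr := .c 0 q30 (.c 2 q31 (.c 6 q32 .e))
noncomputable def t12 : Tr := .c 5 r24 (.c 6 r16 .e)
noncomputable def q33 : Tr := .c 3 (.l 26) .e
noncomputable def r25 : Tr := .c 3 q14 (.c 6 q33 .e)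
noncomputable def t13 : Tr := .c 1 r25 (.c 2 r23 (.c 6 r16 .e))
noncomputable def q34 : Tr := .c 3 (.l 27) (.c 4 (.l 27) .e)
noncomputable def q35 : Tr := .c 3 (.l 28) (.c 4 (.l 28) (.c 5 (.l 28) .e))
noncomputable def q36 : Tr := .c 3 (.l 28) (.c 5 (.l 28) .e)
noncomputable def r26 : Tr := .c 1 q34 (.c 2 q35 (.c 6 q36 .e))
noncomputable def q37 : Tr := .c 4 (.l 27) .e
noncomputable def r27 : Tr := .c 1 q34 (.c 2 q35 (.c 5 q37 .e))
noncomputable def q38 : Tr := .c 5 (.l 29) .e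
noncomputable def r28 : Tr := .c 0 q38 (.c 1 q34 (.c 5 q37 .e))
noncomputable def t14 : Tr := .c 3 r26 (.c 4 r27 (.c 6 r28 .e))
noncomputable def q39 : Tr := .c 3 (.l 30) (.c 4 (.l 30) .e)
noncomputable def q40 : Tr := .c 3 (.l 0) (.c 4 (.l 0) (.c 5 (.l 0) .e))
noncomputable def q41 : Tr := .c 3 (.l 0) (.c 5 (.l 0) .e)
noncomputable def r29 : Tr := .c 1 q39 (.c 2 q40 (.c 6 q41 .e))
noncomputable def q42 : Tr := .c 4 (.l 30) .e
noncomputable def r30 : Tr := .c 1 q39 (.c 2 q40 (.c 5 q42 .e))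
noncomputable def r31 : Tr := .c 0 q1 (.c 2 q40 (.c 4 q1 (.c 6 q41 .e)))
noncomputable def t15 : Tr := .c 3 r29 (.c 4 r30 (.c 5 r31 .e))
noncomputable def q43 : Tr := .c 4 (.l 31) .e
noncomputable def r32 : Tr := .c 5 q43 (.c 6 q41 .e)
noncomputable def r33 : Tr := .c 4 q1 (.c 6 q41 .e)
noncomputable def t16 : Tr := .c 0 r32 (.c 1 r33 (.c 3 r29 (.c 5 r31 .e)))
noncomputable def q44 : Tr := .c 3 (.l 32) (.c 5 (.l 32) .e)
noncomputable def r34 : Tr := .c 5 q37 (.c 6 q44 .e)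
noncomputable def q45 : Tr := .c 5 (.l 33) .e
noncomputable def r35 : Tr := .c 4 q45 (.c 5 q37 .e)
noncomputable def t17 : Tr := .c 0 r34 (.c 2 r35 (.c 4 r27 (.c 6 r28 .e)))
noncomputable def q46 : Tr := .c 5 (.l 2) .e
noncomputable def q47 : Tr := .c 3 (.l 34) (.c 4 (.l 34) .e)
noncomputable def q48 : Tr := .c 4 (.l 34) .e
noncomputable def r36 : Tr := .c 0 q46 (.c 1 q47 (.c 5 q48 .e))
noncomputable def t18 : Tr := .c 5 r31 (.c 6 r36 .e)
noncomputable def q49 : Tr := .c 4 (.l 35) .e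
noncomputable def r37 : Tr := .c 4 q7 (.c 5 q49 .e)
noncomputable def t19 : Tr := .c 1 r33 (.c 2 r37 (.c 5 r31 .e))
noncomputable def q50 : Tr := .c 1 (.l 0) (.c 2 (.l 36) (.c 6 (.l 36) .e))
noncomputable def q51 : Tr := .c 1 (.l 0) (.c 2 (.l 36) .e)
noncomputable def q52 : Tr := .c 1 (.l 0) .e
noncomputable def r38 : Tr := .c 3 q50 (.c 4 q51 (.c 6 q52 .e))
noncomputable def q53 : Tr := .c 1 (.l 7) (.c 2 (.l 37) (.c 6 (.l 37) .e))
noncomputable def q54 : Tr := .c 1 (.l 7) (.c 2 (.l 37) .e)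
noncomputable def q55 : Tr := .c 2 (.l 37) (.c 6 (.l 37) .e)
noncomputable def r39 : Tr := .c 3 q53 (.c 4 q54 (.c 5 q55 .e))
noncomputable def q56 : Tr := .c 6 (.l 37) .e
noncomputable def r40 : Tr := .c 0 q56 (.c 1 q56 (.c 3 q53 (.c 5 q55 .e)))
noncomputable def t20 : Tr := .c 1 r38 (.c 2 r39 (.c 6 r40 .e))
noncomputable def q57 : Tr := .c 6 (.l 38) .e
noncomputable def r41 : Tr := .c 0 q57 (.c 4 q51 (.c 6 q52 .e))
noncomputable def t21 : Tr := .c 1 r38 (.c 2 r39 (.c 5 r41 .e))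
noncomputable def q58 : Tr := .c 2 (.l 39) (.c 6 (.l 39) .e)
noncomputable def r42 : Tr := .c 5 q58 (.c 6 q52 .e)
noncomputable def q59 : Tr := .c 6 (.l 40) .e
noncomputable def r43 : Tr := .c 1 q59 (.c 6 q52 .e)
noncomputable def t22 : Tr := .c 0 r42 (.c 1 r38 (.c 3 r43 (.c 5 r41 .e)))
noncomputable def q60 : Tr := .c 1 (.l 41) (.c 2 (.l 14) (.c 6 (.l 14) .e))
noncomputable def q61 : Tr := .c 1 (.l 41) (.c 2 (.l 14) .e)
noncomputable def q62 : Tr := .c 1 (.l 41) .e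
noncomputable def r44 : Tr := .c 3 q60 (.c 4 q61 (.c 6 q62 .e))
noncomputable def q63 : Tr := .c 1 (.l 42) (.c 2 (.l 12) (.c 6 (.l 12) .e))
noncomputable def q64 : Tr := .c 1 (.l 42) (.c 2 (.l 12) .e)
noncomputable def q65 : Tr := .c 2 (.l 12) (.c 6 (.l 12) .e)
noncomputable def r45 : Tr := .c 3 q63 (.c 4 q64 (.c 5 q65 .e))
noncomputable def r46 : Tr := .c 0 q12 (.c 1 q12 (.c 3 q63 (.c 5 q65 .e)))
noncomputable def t23 : Tr := .c 1 r44 (.c 2 r45 (.c 6 r46 .e))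
noncomputable def q66 : Tr := .c 6 (.l 43) .e
noncomputable def r47 : Tr := .c 0 q66 (.c 4 q61 (.c 6 q62 .e))
noncomputable def t24 : Tr := .c 1 r44 (.c 2 r45 (.c 5 r47 .e))
noncomputable def q67 : Tr := .c 1 (.l 44) .e
noncomputable def r48 : Tr := .c 5 q65 (.c 6 q67 .e)
noncomputable def r49 : Tr := .c 1 q12 (.c 5 q65 .e)
noncomputable def t25 : Tr := .c 0 r48 (.c 2 r45 (.c 4 r49 (.c 6 r46 .e)))
noncomputable def q68 : Tr := .c 1 (.l 45) (.c 2 (.l 46) .e)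
noncomputable def q69 : Tr := .c 1 (.l 45) .e
noncomputable def r50 : Tr := .c 0 q30 (.c 4 q68 (.c 6 q69 .e))
noncomputable def t26 : Tr := .c 5 r50 (.c 6 r46 .e)
noncomputable def q70 : Tr := .c 1 (.l 47) .e
noncomputable def r51 : Tr := .c 1 q12 (.c 6 q70 .e)
noncomputable def t27 : Tr := .c 3 r51 (.c 4 r49 (.c 6 r46 .e))
noncomputable def q71 : Tr := .c 1 (.l 0) (.c 2 (.l 36) (.c 5 (.l 0) .e))
noncomputable def q72 : Tr := .c 1 (.l 0) (.c 5 (.l 0) .e)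
noncomputable def r52 : Tr := .c 3 q51 (.c 4 q71 (.c 6 q72 .e))
noncomputable def q73 : Tr := .c 1 (.l 7) (.c 2 (.l 37) (.c 5 (.l 7) .e))
noncomputable def q74 : Tr := .c 2 (.l 37) .e
noncomputable def r53 : Tr := .c 3 q54 (.c 4 q73 (.c 5 q74 .e))
noncomputable def q75 : Tr := .c 5 (.l 48) .e
noncomputable def r54 : Tr := .c 0 q75 (.c 3 q54 (.c 5 q74 .e))
noncomputable def t28 : Tr := .c 1 r52 (.c 2 r53 (.c 6 r54 .e))
noncomputable def r55 : Tr := .c 0 q1 (.c 2 q1 (.c 4 q71 (.c 6 q72 .e)))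
noncomputable def t29 : Tr := .c 1 r52 (.c 2 r53 (.c 5 r55 .e))
noncomputable def q76 : Tr := .c 2 (.l 39) .e
noncomputable def r56 : Tr := .c 5 q76 (.c 6 q72 .e)
noncomputable def r57 : Tr := .c 2 q1 (.c 6 q72 .e)
noncomputable def t30 : Tr := .c 0 r56 (.c 1 r52 (.c 3 r57 (.c 5 r55 .e)))
noncomputable def q77 : Tr := .c 1 (.l 41) (.c 2 (.l 14) (.c 5 (.l 41) .e))
noncomputable def q78 : Tr := .c 1 (.l 41) (.c 5 (.l 41) .e)
noncomputable def r58 : Tr := .c 3 q61 (.c 4 q77 (.c 6 q78 .e))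
noncomputable def q79 : Tr := .c 1 (.l 42) (.c 2 (.l 12) (.c 5 (.l 42) .e))
noncomputable def q80 : Tr := .c 2 (.l 12) .e
noncomputable def r59 : Tr := .c 3 q64 (.c 4 q79 (.c 5 q80 .e))
noncomputable def q81 : Tr := .c 5 (.l 49) .e
noncomputable def r60 : Tr := .c 0 q81 (.c 3 q64 (.c 5 q80 .e))
noncomputable def t31 : Tr := .c 1 r58 (.c 2 r59 (.c 6 r60 .e))
noncomputable def q82 : Tr := .c 5 (.l 41) .e
noncomputable def r61 : Tr := .c 0 q82 (.c 2 q82 (.c 4 q77 (.c 6 q78 .e)))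
noncomputable def t32 : Tr := .c 1 r58 (.c 2 r59 (.c 5 r61 .e))
noncomputable def q83 : Tr := .c 1 (.l 44) (.c 5 (.l 44) .e)
noncomputable def r62 : Tr := .c 5 q80 (.c 6 q83 .e)
noncomputable def q84 : Tr := .c 5 (.l 47) .e
noncomputable def r63 : Tr := .c 2 q84 (.c 5 q80 .e)
noncomputable def t33 : Tr := .c 0 r62 (.c 2 r59 (.c 4 r63 (.c 6 r60 .e)))
noncomputable def q85 : Tr := .c 1 (.l 50) (.c 2 (.l 51) .e)
noncomputable def q86 : Tr := .c 2 (.l 51) .e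
noncomputable def r64 : Tr := .c 0 q46 (.c 3 q85 (.c 5 q86 .e))
noncomputable def t34 : Tr := .c 5 r55 (.c 6 r64 .e)
noncomputable def q87 : Tr := .c 2 (.l 40) .e
noncomputable def r65 : Tr := .c 2 q1 (.c 5 q87 .e)
noncomputable def t35 : Tr := .c 3 r57 (.c 4 r65 (.c 5 r55 .e))
noncomputable def q88 : Tr := .c 0 (.l 12) (.c 2 (.l 12) (.c 4 (.l 12) (.c 6 (.l 12) .e)))
noncomputable def q89 : Tr := .c 0 (.l 52) .e
noncomputable def r66 : Tr := .c 5 q88 (.c 6 q89 .e)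
noncomputable def r67 : Tr := .c 3 q65 (.c 4 q80 (.c 5 q88 .e))
noncomputable def q90 : Tr := .c 4 (.l 18) .e
noncomputable def r68 : Tr := .c 1 q21 (.c 2 q90 (.c 5 q88 .e))
noncomputable def r69 : Tr := .c 0 q12 (.c 1 q21 (.c 3 q65 (.c 5 q88 .e)))
noncomputable def t36 : Tr := .c 0 r66 (.c 2 r67 (.c 4 r68 (.c 6 r69 .e)))
noncomputable def q91 : Tr := .c 0 (.l 53) (.c 2 (.l 53) (.c 4 (.l 53) (.c 6 (.l 53) .e)))
noncomputable def q92 : Tr := .c 0 (.l 54) .e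
noncomputable def r70 : Tr := .c 5 q91 (.c 6 q92 .e)
noncomputable def q93 : Tr := .c 2 (.l 55) (.c 6 (.l 55) .e)
noncomputable def q94 : Tr := .c 2 (.l 55) .e
noncomputable def r71 : Tr := .c 3 q93 (.c 4 q94 (.c 6 q92 .e))
noncomputable def q95 : Tr := .c 4 (.l 56) (.c 6 (.l 56) .e)
noncomputable def q96 : Tr := .c 4 (.l 57) .e
noncomputable def r72 : Tr := .c 1 q95 (.c 2 q96 (.c 6 q92 .e))
noncomputable def q97 : Tr := .c 6 (.l 58) .e
noncomputable def r73 : Tr := .c 0 q97 (.c 2 q96 (.c 4 q94 (.c 6 q92 .e)))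
noncomputable def t37 : Tr := .c 0 r70 (.c 1 r71 (.c 3 r72 (.c 5 r73 .e)))
noncomputable def q98 : Tr := .c 2 (.l 14) (.c 6 (.l 14) .e)
noncomputable def q99 : Tr := .c 2 (.l 14) .e
noncomputable def q100 : Tr := .c 0 (.l 59) .e
noncomputable def r74 : Tr := .c 3 q98 (.c 4 q99 (.c 6 q100 .e))
noncomputable def t38 : Tr := .c 1 r74 (.c 2 r67 (.c 6 r69 .e))
noncomputable def q101 : Tr := .c 4 (.l 26) .e
noncomputable def r75 : Tr := .c 0 q66 (.c 2 q101 (.c 4 q99 (.c 6 q100 .e)))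
noncomputable def t39 : Tr := .c 1 r74 (.c 2 r67 (.c 5 r75 .e))
noncomputable def q102 : Tr := .c 0 (.l 60) .e
noncomputable def r76 : Tr := .c 1 q21 (.c 2 q90 (.c 6 q102 .e))
noncomputable def t40 : Tr := .c 3 r76 (.c 4 r68 (.c 6 r69 .e))
noncomputable def q103 : Tr := .c 4 (.l 20) .e
noncomputable def q104 : Tr := .c 0 (.l 61) .e
noncomputable def r77 : Tr := .c 1 q25 (.c 2 q103 (.c 6 q104 .e))
noncomputable def q105 : Tr := .c 0 (.l 19) (.c 2 (.l 19) (.c 4 (.l 19) (.c 6 (.l 19) .e)))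
noncomputable def r78 : Tr := .c 1 q25 (.c 2 q103 (.c 5 q105 .e))
noncomputable def q106 : Tr := .c 2 (.l 23) .e
noncomputable def r79 : Tr := .c 0 q26 (.c 2 q103 (.c 4 q106 (.c 6 q104 .e)))
noncomputable def t41 : Tr := .c 3 r77 (.c 4 r78 (.c 5 r79 .e))
noncomputable def q107 : Tr := .c 4 (.l 25) .e
noncomputable def q108 : Tr := .c 2 (.l 46) .e
noncomputable def q109 : Tr := .c 0 (.l 62) .e
noncomputable def r80 : Tr := .c 0 q30 (.c 2 q107 (.c 4 q108 (.c 6 q109 .e)))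
noncomputable def t42 : Tr := .c 5 r80 (.c 6 r69 .e)
noncomputable def q110 : Tr := .c 0 (.l 63) .e
noncomputable def q111 : Tr := .c 0 (.l 64) (.c 1 (.l 64) (.c 3 (.l 64) (.c 5 (.l 64) .e)))
noncomputable def r81 : Tr := .c 5 q110 (.c 6 q111 .e)
noncomputable def q112 : Tr := .c 1 (.l 65) .e
noncomputable def q113 : Tr := .c 1 (.l 65) (.c 5 (.l 65) .e)
noncomputable def r82 : Tr := .c 3 q112 (.c 4 q113 (.c 5 q110 .e))
noncomputable def q114 : Tr := .c 3 (.l 66) .e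
noncomputable def q115 : Tr := .c 3 (.l 67) (.c 5 (.l 67) .e)
noncomputable def r83 : Tr := .c 1 q114 (.c 2 q115 (.c 5 q110 .e))
noncomputable def q116 : Tr := .c 5 (.l 68) .e
noncomputable def r84 : Tr := .c 0 q116 (.c 1 q114 (.c 3 q112 (.c 5 q110 .e)))
noncomputable def t43 : Tr := .c 0 r81 (.c 2 r82 (.c 4 r83 (.c 6 r84 .e)))
noncomputable def q117 : Tr := .c 0 (.l 69) .e
noncomputable def q118 : Tr := .c 0 (.l 0) (.c 1 (.l 0) (.c 3 (.l 0) (.c 5 (.l 0) .e)))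
noncomputable def r85 : Tr := .c 5 q117 (.c 6 q118 .e)
noncomputable def r86 : Tr := .c 3 q52 (.c 4 q72 (.c 6 q118 .e))
noncomputable def q119 : Tr := .c 3 (.l 30) .e
noncomputable def r87 : Tr := .c 1 q119 (.c 2 q41 (.c 6 q118 .e))
noncomputable def r88 : Tr := .c 0 q1 (.c 2 q41 (.c 4 q72 (.c 6 q118 .e)))
noncomputable def t44 : Tr := .c 0 r85 (.c 1 r86 (.c 3 r87 (.c 5 r88 .e)))
noncomputable def q120 : Tr := .c 1 (.l 7) .e
noncomputable def q121 : Tr := .c 1 (.l 7) (.c 5 (.l 7) .e)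
noncomputable def q122 : Tr := .c 0 (.l 70) .e
noncomputable def r89 : Tr := .c 3 q120 (.c 4 q121 (.c 5 q122 .e))
noncomputable def q123 : Tr := .c 3 (.l 35) .e
noncomputable def r90 : Tr := .c 0 q75 (.c 1 q123 (.c 3 q120 (.c 5 q122 .e)))
noncomputable def t45 : Tr := .c 1 r86 (.c 2 r89 (.c 6 r90 .e))
noncomputable def t46 : Tr := .c 1 r86 (.c 2 r89 (.c 5 r88 .e))
noncomputable def q124 : Tr := .c 3 (.l 27) .e
noncomputable def q125 : Tr := .c 0 (.l 28) (.c 1 (.l 28) (.c 3 (.l 28) (.c 5 (.l 28) .e)))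
noncomputable def r91 : Tr := .c 1 q124 (.c 2 q36 (.c 6 q125 .e))
noncomputable def q126 : Tr := .c 0 (.l 71) .e
noncomputable def r92 : Tr := .c 1 q124 (.c 2 q36 (.c 5 q126 .e))
noncomputable def q127 : Tr := .c 1 (.l 33) .e
noncomputable def r93 : Tr := .c 0 q38 (.c 1 q124 (.c 3 q127 (.c 5 q126 .e)))
noncomputable def t47 : Tr := .c 3 r91 (.c 4 r92 (.c 6 r93 .e))
noncomputable def q128 : Tr := .c 0 (.l 72) .e
noncomputable def r94 : Tr := .c 1 q119 (.c 2 q41 (.c 5 q128 .e))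
noncomputable def t48 : Tr := .c 3 r87 (.c 4 r94 (.c 5 r88 .e))
noncomputable def q129 : Tr := .c 3 (.l 34) .e
noncomputable def q130 : Tr := .c 1 (.l 50) .e
noncomputable def q131 : Tr := .c 0 (.l 73) .e
noncomputable def r95 : Tr := .c 0 q46 (.c 1 q129 (.c 3 q130 (.c 5 q131 .e)))
noncomputable def t49 : Tr := .c 5 r88 (.c 6 r95 .e)

/-- the diagram -/
noncomputable def T : Tr := (.c 0 (.c 5 (.c 0 t0 (.c 2 t1 (.c 4 t2 (.c 6 t3 .e)))) (.c 6 (.c 0 t4 (.c 1 t5 (.c 3 t6 (.c 5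
t7 .e)))) .e)) (.c 1 (.c 3 (.c 1 t8 (.c 2 t9 (.c 6 t10 .e))) (.c 4 (.c 1 t8 (.c 2 t9 (.c 5 t11
.e))) (.c 6 (.c 0 t12 (.c 1 t8 (.c 3 t13 (.c 5 t11 .e)))) .e))) (.c 2 (.c 3 (.c 1 t14 (.c 2 t15
(.c 6 t16 .e))) (.c 4 (.c 1 t14 (.c 2 t15 (.c 5 t17 .e))) (.c 5 (.c 0 t18 (.c 2 t15 (.c 4 t19
(.c 6 t16 .e)))) .e))) (.c 3 (.c 1 (.c 3 t20 (.c 4 t21 (.c 6 t22 .e))) (.c 2 (.c 3 t23 (.c 4
t24 (.c 5 t25 .e))) (.c 6 (.c 0 t26 (.c 1 t27 (.c 3 t23 (.c 5 t25 .e)))) .e))) (.c 4 (.c 1 (.c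
3 t28 (.c 4 t29 (.c 6 t30 .e))) (.c 2 (.c 3 t31 (.c 4 t32 (.c 5 t33 .e))) (.c 5 (.c 0 t34 (.c 2
t35 (.c 4 t29 (.c 6 t30 .e)))) .e))) (.c 5 (.c 0 (.c 5 t36 (.c 6 t37 .e)) (.c 2 (.c 3 t38 (.c 4
t39 (.c 5 t36 .e))) (.c 4 (.c 1 t40 (.c 2 t41 (.c 5 t36 .e))) (.c 6 (.c 0 t42 (.c 1 t40 (.c 3
t38 (.c 5 t36 .e)))) .e)))) (.c 6 (.c 0 (.c 5 t43 (.c 6 t44 .e)) (.c 1 (.c 3 t45 (.c 4 t46 (.c
6 t44 .e))) (.c 3 (.c 1 t47 (.c 2 t48 (.c 6 t44 .e))) (.c 5 (.c 0 t49 (.c 2 t48 (.c 4 t46 (.c 6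
t44 .e)))) .e)))) .e)))))))

end Vale.Agent.P032.H800.W30.A
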