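import Vale.Agent.P032.Words.H670.Split

/-!
# P032: hexagons around a centre with six colours, box tables (W30, data B)
-/

open Vale.Agent.P032.Words.Trie

namespace Vale.Agent.P032.H800.W30.B

/-- the data -/
def D : Dat where
  A := 7
  N := 16
  nb := [96, 88, 56, 70, 38, 85, 43]
  op := [127, 127, 127, 127, 127, 127, 127]
  nbT := [96, 32856, 16440, 10310, 6182, 42325, 21163, 41024, 20512, 43072, 22560, 50712, 42320, 21160,
44356, 23202]
  opT := [65535, 32767, 49151, 55295, 59391, 23295, 44415, 65471, 65503, 65471, 65503, 65511, 65455,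
65495, 65467, 65501]
  PL := [[0], [1], [2], [3], [4], [5], [6], [0, 1], [0, 2], [0, 3], [0, 4], [1, 2], [1, 5], [2, 6], [3,
5], [4, 6]]
  L := [3, 5, 9, 18, 34, 20, 40]
  P := [3, 5, 9, 18, 34, 20, 40, 7, 11, 19, 35, 13, 21, 41, 22, 42]
  r := 0
  tie := [0, 0, 0, 0, 0, 0, 0, 0, 0, 0, 0, 0, 0, 0, 0, 0]

/-- changes of the value at a tie -/
def J : List (List ℕ) := [[]]

/-- reachable values -/
def R : List (List ℕ) := [[1], [2], [4], [8], [0x10], [0x20], [0x40], [0x80], [0x100], [0x200], [0x400], [0x800],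
[0x1000], [0x2000], [0x4000], [0x8000], [0x10000], [0x20000], [0x40000], [0x80000], [0x100000],
[0x200000], [0x400000], [0x800000], [0x1000000], [0x2000000], [0x4000000], [0x8000000],
[0x10000000], [0x20000000], [0x40000000], [0x80000000], [0x100000000], [0x200000000],
[0x400000000], [0x800000000], [0x1000000000], [0x2000000000], [0x4000000000], [0x8000000000],
[0x10000000000], [0x20000000000], [0x40000000000], [0x80000000000], [0x100000000000],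
[0x200000000000], [0x400000000000], [0x800000000000], [0x1000000000000], [0x2000000000000],
[0x4000000000000], [0x8000000000000], [0x10000000000000], [0x20000000000000],
[0x40000000000000], [0x80000000000000], [0x100000000000000], [0x200000000000000],
[0x400000000000000], [0x800000000000000], [0x1000000000000000], [0x2000000000000000],
[0x4000000000000000], [0x8000000000000000], [0x10000000000000000], [0x20000000000000000],
[0x40000000000000000], [0x80000000000000000], [0x100000000000000000], [0x200000000000000000],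
[0x400000000000000000], [0x800000000000000000], [0x1000000000000000000],
[0x2000000000000000000]]

noncomputable def q0 : Tr := .c 5 (.l 0) (.c 6 (.l 1) .e)
noncomputable def q1 : Tr := .c 5 (.l 0) .e
noncomputable def r0 : Tr := .c 0 q0 (.c 2 q1 (.c 4 q1 (.c 6 q1 .e)))
noncomputable def q2 : Tr := .c 5 (.l 2) (.c 6 (.l 3) .e)
noncomputable def q3 : Tr := .c 6 (.l 3) .e
noncomputable def r1 : Tr := .c 0 q2 (.c 1 q3 (.c 3 q3 (.c 5 q3 .e)))
noncomputable def t0 : Tr := .c 5 r0 (.c 6 r1 .e)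
noncomputable def q4 : Tr := .c 6 (.l 4) .e
noncomputable def r2 : Tr := .c 1 q4 (.c 2 q1 (.c 6 q1 .e))
noncomputable def q5 : Tr := .c 6 (.l 5) .e
noncomputable def q6 : Tr := .c 5 (.l 6) .e
noncomputable def r3 : Tr := .c 1 q5 (.c 2 q6 (.c 5 q5 .e))
noncomputable def t1 : Tr := .c 3 r2 (.c 4 r3 (.c 5 r0 .e))
noncomputable def q7 : Tr := .c 6 (.l 7) .e
noncomputable def r4 : Tr := .c 3 q7 (.c 4 q1 (.c 6 q1 .e))
noncomputable def r5 : Tr := .c 3 q7 (.c 4 q1 (.c 5 q7 .e))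
noncomputable def t2 : Tr := .c 1 r4 (.c 2 r5 (.c 5 r0 .e))
noncomputable def q8 : Tr := .c 6 (.l 8) .e
noncomputable def r6 : Tr := .c 5 q8 (.c 6 q1 .e)
noncomputable def t3 : Tr := .c 0 r6 (.c 1 r4 (.c 3 r2 (.c 5 r0 .e)))
noncomputable def q9 : Tr := .c 5 (.l 9) (.c 6 (.l 10) .e)
noncomputable def q10 : Tr := .c 5 (.l 9) .e
noncomputable def r7 : Tr := .c 0 q9 (.c 2 q10 (.c 4 q10 (.c 6 q10 .e)))
noncomputable def q11 : Tr := .c 5 (.l 11) (.c 6 (.l 12) .e)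
noncomputable def q12 : Tr := .c 6 (.l 12) .e
noncomputable def r8 : Tr := .c 0 q11 (.c 1 q12 (.c 3 q12 (.c 5 q12 .e)))
noncomputable def t4 : Tr := .c 5 r7 (.c 6 r8 .e)
noncomputable def q13 : Tr := .c 6 (.l 13) .e
noncomputable def q14 : Tr := .c 5 (.l 14) .e
noncomputable def r9 : Tr := .c 1 q13 (.c 2 q14 (.c 6 q14 .e))
noncomputable def q15 : Tr := .c 5 (.l 15) .e
noncomputable def r10 : Tr := .c 1 q12 (.c 2 q15 (.c 5 q12 .e))
noncomputable def t5 : Tr := .c 3 r9 (.c 4 r10 (.c 6 r8 .e))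
noncomputable def q16 : Tr := .c 5 (.l 16) .e
noncomputable def r11 : Tr := .c 3 q12 (.c 4 q16 (.c 6 q16 .e))
noncomputable def r12 : Tr := .c 3 q12 (.c 4 q16 (.c 5 q12 .e))
noncomputable def t6 : Tr := .c 1 r11 (.c 2 r12 (.c 6 r8 .e))
noncomputable def q17 : Tr := .c 5 (.l 17) .e
noncomputable def r13 : Tr := .c 5 q12 (.c 6 q17 .e)
noncomputable def t7 : Tr := .c 0 r13 (.c 2 r12 (.c 4 r10 (.c 6 r8 .e)))
noncomputable def q18 : Tr := .c 3 (.l 0) (.c 4 (.l 18) (.c 6 (.l 18) .e))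
noncomputable def q19 : Tr := .c 3 (.l 0) (.c 4 (.l 18) .e)
noncomputable def q20 : Tr := .c 3 (.l 0) .e
noncomputable def r14 : Tr := .c 1 q18 (.c 2 q19 (.c 6 q20 .e))
noncomputable def q21 : Tr := .c 3 (.l 6) (.c 4 (.l 19) (.c 6 (.l 19) .e))
noncomputable def q22 : Tr := .c 3 (.l 6) (.c 4 (.l 19) .e)
noncomputable def q23 : Tr := .c 4 (.l 19) (.c 6 (.l 19) .e)
noncomputable def r15 : Tr := .c 1 q21 (.c 2 q22 (.c 5 q23 .e))
noncomputable def q24 : Tr := .c 6 (.l 19) .e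
noncomputable def r16 : Tr := .c 0 q24 (.c 1 q21 (.c 3 q24 (.c 5 q23 .e)))
noncomputable def t8 : Tr := .c 3 r14 (.c 4 r15 (.c 6 r16 .e))
noncomputable def q25 : Tr := .c 6 (.l 20) .e
noncomputable def r17 : Tr := .c 0 q25 (.c 2 q19 (.c 6 q20 .e))
noncomputable def t9 : Tr := .c 3 r14 (.c 4 r15 (.c 5 r17 .e))
noncomputable def q26 : Tr := .c 4 (.l 21) (.c 6 (.l 21) .e)
noncomputable def r18 : Tr := .c 5 q26 (.c 6 q20 .e)
noncomputable def q27 : Tr := .c 6 (.l 22) .e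
noncomputable def r19 : Tr := .c 3 q27 (.c 6 q20 .e)
noncomputable def t10 : Tr := .c 0 r18 (.c 1 r19 (.c 3 r14 (.c 5 r17 .e)))
noncomputable def q28 : Tr := .c 3 (.l 23) (.c 4 (.l 13) (.c 6 (.l 13) .e))
noncomputable def q29 : Tr := .c 3 (.l 23) (.c 4 (.l 13) .e)
noncomputable def q30 : Tr := .c 3 (.l 23) .e
noncomputable def r20 : Tr := .c 1 q28 (.c 2 q29 (.c 6 q30 .e))
noncomputable def q31 : Tr := .c 3 (.l 24) (.c 4 (.l 12) (.c 6 (.l 12) .e))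
noncomputable def q32 : Tr := .c 3 (.l 24) (.c 4 (.l 12) .e)
noncomputable def q33 : Tr := .c 4 (.l 12) (.c 6 (.l 12) .e)
noncomputable def r21 : Tr := .c 1 q31 (.c 2 q32 (.c 5 q33 .e))
noncomputable def r22 : Tr := .c 0 q12 (.c 1 q31 (.c 3 q12 (.c 5 q33 .e)))
noncomputable def t11 : Tr := .c 3 r20 (.c 4 r21 (.c 6 r22 .e))
noncomputable def q34 : Tr := .c 6 (.l 25) .e
noncomputable def r23 : Tr := .c 0 q34 (.c 2 q29 (.c 6 q30 .e))
noncomputable def t12 : Tr := .c 3 r20 (.c 4 r21 (.c 5 r23 .e))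
noncomputable def q35 : Tr := .c 3 (.l 26) .e
noncomputable def r24 : Tr := .c 5 q33 (.c 6 q35 .e)
noncomputable def r25 : Tr := .c 3 q12 (.c 5 q33 .e)
noncomputable def t13 : Tr := .c 0 r24 (.c 2 r25 (.c 4 r21 (.c 6 r22 .e)))
noncomputable def q36 : Tr := .c 6 (.l 10) .e
noncomputable def q37 : Tr := .c 3 (.l 27) (.c 4 (.l 28) .e)
noncomputable def q38 : Tr := .c 3 (.l 27) .e
noncomputable def r26 : Tr := .c 0 q36 (.c 2 q37 (.c 6 q38 .e))
noncomputable def t14 : Tr := .c 5 r26 (.c 6 r22 .e)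
noncomputable def q39 : Tr := .c 3 (.l 29) .e
noncomputable def r27 : Tr := .c 3 q12 (.c 6 q39 .e)
noncomputable def t15 : Tr := .c 1 r27 (.c 2 r25 (.c 6 r22 .e))
noncomputable def q40 : Tr := .c 3 (.l 0) (.c 4 (.l 18) (.c 5 (.l 0) .e))
noncomputable def q41 : Tr := .c 3 (.l 0) (.c 5 (.l 0) .e)
noncomputable def r28 : Tr := .c 1 q19 (.c 2 q40 (.c 6 q41 .e))
noncomputable def q42 : Tr := .c 3 (.l 6) (.c 4 (.l 19) (.c 5 (.l 6) .e))
noncomputable def q43 : Tr := .c 4 (.l 19) .e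
noncomputable def r29 : Tr := .c 1 q22 (.c 2 q42 (.c 5 q43 .e))
noncomputable def q44 : Tr := .c 5 (.l 30) .e
noncomputable def r30 : Tr := .c 0 q44 (.c 1 q22 (.c 5 q43 .e))
noncomputable def t16 : Tr := .c 3 r28 (.c 4 r29 (.c 6 r30 .e))
noncomputable def r31 : Tr := .c 0 q1 (.c 2 q40 (.c 4 q1 (.c 6 q41 .e)))
noncomputable def t17 : Tr := .c 3 r28 (.c 4 r29 (.c 5 r31 .e))
noncomputable def q45 : Tr := .c 4 (.l 21) .e
noncomputable def r32 : Tr := .c 5 q45 (.c 6 q41 .e)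
noncomputable def r33 : Tr := .c 4 q1 (.c 6 q41 .e)
noncomputable def t18 : Tr := .c 0 r32 (.c 1 r33 (.c 3 r28 (.c 5 r31 .e)))
noncomputable def q46 : Tr := .c 3 (.l 23) (.c 4 (.l 13) (.c 5 (.l 23) .e))
noncomputable def q47 : Tr := .c 3 (.l 23) (.c 5 (.l 23) .e)
noncomputable def r34 : Tr := .c 1 q29 (.c 2 q46 (.c 6 q47 .e))
noncomputable def q48 : Tr := .c 3 (.l 24) (.c 4 (.l 12) (.c 5 (.l 24) .e))
noncomputable def q49 : Tr := .c 4 (.l 12) .e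
noncomputable def r35 : Tr := .c 1 q32 (.c 2 q48 (.c 5 q49 .e))
noncomputable def q50 : Tr := .c 5 (.l 31) .e
noncomputable def r36 : Tr := .c 0 q50 (.c 1 q32 (.c 5 q49 .e))
noncomputable def t19 : Tr := .c 3 r34 (.c 4 r35 (.c 6 r36 .e))
noncomputable def q51 : Tr := .c 5 (.l 23) .e
noncomputable def r37 : Tr := .c 0 q51 (.c 2 q46 (.c 4 q51 (.c 6 q47 .e)))
noncomputable def t20 : Tr := .c 3 r34 (.c 4 r35 (.c 5 r37 .e))
noncomputable def q52 : Tr := .c 3 (.l 26) (.c 5 (.l 26) .e)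
noncomputable def r38 : Tr := .c 5 q49 (.c 6 q52 .e)
noncomputable def q53 : Tr := .c 5 (.l 29) .e
noncomputable def r39 : Tr := .c 4 q53 (.c 5 q49 .e)
noncomputable def t21 : Tr := .c 0 r38 (.c 2 r39 (.c 4 r35 (.c 6 r36 .e)))
noncomputable def q54 : Tr := .c 5 (.l 2) .e
noncomputable def q55 : Tr := .c 3 (.l 32) (.c 4 (.l 33) .e)
noncomputable def q56 : Tr := .c 4 (.l 33) .e
noncomputable def r40 : Tr := .c 0 q54 (.c 1 q55 (.c 5 q56 .e))
noncomputable def t22 : Tr := .c 5 r31 (.c 6 r40 .e)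
noncomputable def q57 : Tr := .c 4 (.l 22) .e
noncomputable def r41 : Tr := .c 4 q1 (.c 5 q57 .e)
noncomputable def t23 : Tr := .c 1 r33 (.c 2 r41 (.c 5 r31 .e))
noncomputable def q58 : Tr := .c 1 (.l 12) (.c 2 (.l 12) (.c 6 (.l 12) .e))
noncomputable def q59 : Tr := .c 1 (.l 34) (.c 2 (.l 34) .e)
noncomputable def q60 : Tr := .c 1 (.l 34) .e
noncomputable def r42 : Tr := .c 3 q58 (.c 4 q59 (.c 6 q60 .e))
noncomputable def q61 : Tr := .c 2 (.l 12) (.c 6 (.l 12) .e)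
noncomputable def r43 : Tr := .c 3 q58 (.c 4 q59 (.c 5 q61 .e))
noncomputable def r44 : Tr := .c 0 q12 (.c 1 q12 (.c 3 q58 (.c 5 q61 .e)))
noncomputable def t24 : Tr := .c 1 r42 (.c 2 r43 (.c 6 r44 .e))
noncomputable def q62 : Tr := .c 1 (.l 35) (.c 2 (.l 35) (.c 6 (.l 35) .e))
noncomputable def q63 : Tr := .c 1 (.l 36) (.c 2 (.l 36) .e)
noncomputable def q64 : Tr := .c 1 (.l 36) .e
noncomputable def r45 : Tr := .c 3 q62 (.c 4 q63 (.c 6 q64 .e))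
noncomputable def q65 : Tr := .c 2 (.l 35) (.c 6 (.l 35) .e)
noncomputable def r46 : Tr := .c 3 q62 (.c 4 q63 (.c 5 q65 .e))
noncomputable def q66 : Tr := .c 6 (.l 37) .e
noncomputable def r47 : Tr := .c 0 q66 (.c 4 q63 (.c 6 q64 .e))
noncomputable def t25 : Tr := .c 1 r45 (.c 2 r46 (.c 5 r47 .e))
noncomputable def q67 : Tr := .c 2 (.l 38) (.c 6 (.l 38) .e)
noncomputable def r48 : Tr := .c 5 q67 (.c 6 q64 .e)
noncomputable def q68 : Tr := .c 6 (.l 39) .e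
noncomputable def r49 : Tr := .c 1 q68 (.c 6 q64 .e)
noncomputable def t26 : Tr := .c 0 r48 (.c 1 r45 (.c 3 r49 (.c 5 r47 .e)))
noncomputable def q69 : Tr := .c 1 (.l 40) .e
noncomputable def r50 : Tr := .c 5 q61 (.c 6 q69 .e)
noncomputable def r51 : Tr := .c 1 q12 (.c 5 q61 .e)
noncomputable def t27 : Tr := .c 0 r50 (.c 2 r43 (.c 4 r51 (.c 6 r44 .e)))
noncomputable def q70 : Tr := .c 1 (.l 41) (.c 2 (.l 41) .e)
noncomputable def q71 : Tr := .c 1 (.l 41) .e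
noncomputable def r52 : Tr := .c 0 q36 (.c 4 q70 (.c 6 q71 .e))
noncomputable def t28 : Tr := .c 5 r52 (.c 6 r44 .e)
noncomputable def q72 : Tr := .c 1 (.l 42) .e
noncomputable def r53 : Tr := .c 1 q13 (.c 6 q72 .e)
noncomputable def t29 : Tr := .c 3 r53 (.c 4 r51 (.c 6 r44 .e))
noncomputable def q73 : Tr := .c 1 (.l 43) (.c 2 (.l 43) .e)
noncomputable def q74 : Tr := .c 1 (.l 44) (.c 2 (.l 44) (.c 5 (.l 44) .e))
noncomputable def q75 : Tr := .c 1 (.l 44) (.c 5 (.l 44) .e)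
noncomputable def r54 : Tr := .c 3 q73 (.c 4 q74 (.c 6 q75 .e))
noncomputable def q76 : Tr := .c 2 (.l 43) .e
noncomputable def r55 : Tr := .c 3 q73 (.c 4 q74 (.c 5 q76 .e))
noncomputable def q77 : Tr := .c 5 (.l 45) .e
noncomputable def r56 : Tr := .c 0 q77 (.c 3 q73 (.c 5 q76 .e))
noncomputable def t30 : Tr := .c 1 r54 (.c 2 r55 (.c 6 r56 .e))
noncomputable def q78 : Tr := .c 1 (.l 46) (.c 2 (.l 46) .e)
noncomputable def q79 : Tr := .c 1 (.l 0) (.c 2 (.l 0) (.c 5 (.l 0) .e))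
noncomputable def q80 : Tr := .c 1 (.l 0) (.c 5 (.l 0) .e)
noncomputable def r57 : Tr := .c 3 q78 (.c 4 q79 (.c 6 q80 .e))
noncomputable def q81 : Tr := .c 2 (.l 46) .e
noncomputable def r58 : Tr := .c 3 q78 (.c 4 q79 (.c 5 q81 .e))
noncomputable def r59 : Tr := .c 0 q1 (.c 2 q1 (.c 4 q79 (.c 6 q80 .e)))
noncomputable def t31 : Tr := .c 1 r57 (.c 2 r58 (.c 5 r59 .e))
noncomputable def q82 : Tr := .c 2 (.l 47) .e
noncomputable def r60 : Tr := .c 5 q82 (.c 6 q80 .e)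
noncomputable def r61 : Tr := .c 2 q1 (.c 6 q80 .e)
noncomputable def t32 : Tr := .c 0 r60 (.c 1 r57 (.c 3 r61 (.c 5 r59 .e)))
noncomputable def q83 : Tr := .c 1 (.l 48) (.c 5 (.l 48) .e)
noncomputable def r62 : Tr := .c 5 q76 (.c 6 q83 .e)
noncomputable def q84 : Tr := .c 5 (.l 49) .e
noncomputable def r63 : Tr := .c 2 q84 (.c 5 q76 .e)
noncomputable def t33 : Tr := .c 0 r62 (.c 2 r55 (.c 4 r63 (.c 6 r56 .e)))
noncomputable def q85 : Tr := .c 1 (.l 50) (.c 2 (.l 50) .e)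
noncomputable def q86 : Tr := .c 2 (.l 50) .e
noncomputable def r64 : Tr := .c 0 q54 (.c 3 q85 (.c 5 q86 .e))
noncomputable def t34 : Tr := .c 5 r59 (.c 6 r64 .e)
noncomputable def q87 : Tr := .c 2 (.l 51) .e
noncomputable def r65 : Tr := .c 2 q6 (.c 5 q87 .e)
noncomputable def t35 : Tr := .c 3 r61 (.c 4 r65 (.c 5 r59 .e))
noncomputable def q88 : Tr := .c 0 (.l 12) (.c 2 (.l 12) (.c 4 (.l 12) (.c 6 (.l 12) .e)))
noncomputable def q89 : Tr := .c 0 (.l 52) .e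
noncomputable def r66 : Tr := .c 5 q88 (.c 6 q89 .e)
noncomputable def q90 : Tr := .c 2 (.l 34) .e
noncomputable def r67 : Tr := .c 3 q61 (.c 4 q90 (.c 5 q88 .e))
noncomputable def r68 : Tr := .c 1 q33 (.c 2 q49 (.c 5 q88 .e))
noncomputable def r69 : Tr := .c 0 q12 (.c 1 q33 (.c 3 q61 (.c 5 q88 .e)))
noncomputable def t36 : Tr := .c 0 r66 (.c 2 r67 (.c 4 r68 (.c 6 r69 .e)))
noncomputable def q91 : Tr := .c 0 (.l 53) (.c 2 (.l 53) (.c 4 (.l 53) (.c 6 (.l 53) .e)))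
noncomputable def q92 : Tr := .c 0 (.l 54) .e
noncomputable def r70 : Tr := .c 5 q91 (.c 6 q92 .e)
noncomputable def q93 : Tr := .c 2 (.l 55) (.c 6 (.l 55) .e)
noncomputable def q94 : Tr := .c 2 (.l 56) .e
noncomputable def r71 : Tr := .c 3 q93 (.c 4 q94 (.c 6 q92 .e))
noncomputable def q95 : Tr := .c 4 (.l 57) (.c 6 (.l 57) .e)
noncomputable def q96 : Tr := .c 4 (.l 57) .e
noncomputable def r72 : Tr := .c 1 q95 (.c 2 q96 (.c 6 q92 .e))
noncomputable def q97 : Tr := .c 6 (.l 58) .e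
noncomputable def r73 : Tr := .c 0 q97 (.c 2 q96 (.c 4 q94 (.c 6 q92 .e)))
noncomputable def t37 : Tr := .c 0 r70 (.c 1 r71 (.c 3 r72 (.c 5 r73 .e)))
noncomputable def q98 : Tr := .c 0 (.l 59) .e
noncomputable def r74 : Tr := .c 3 q61 (.c 4 q90 (.c 6 q98 .e))
noncomputable def t38 : Tr := .c 1 r74 (.c 2 r67 (.c 6 r69 .e))
noncomputable def q99 : Tr := .c 2 (.l 36) .e
noncomputable def q100 : Tr := .c 0 (.l 60) .e
noncomputable def r75 : Tr := .c 3 q65 (.c 4 q99 (.c 6 q100 .e))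
noncomputable def q101 : Tr := .c 0 (.l 35) (.c 2 (.l 35) (.c 4 (.l 35) (.c 6 (.l 35) .e)))
noncomputable def r76 : Tr := .c 3 q65 (.c 4 q99 (.c 5 q101 .e))
noncomputable def q102 : Tr := .c 4 (.l 39) .e
noncomputable def r77 : Tr := .c 0 q66 (.c 2 q102 (.c 4 q99 (.c 6 q100 .e)))
noncomputable def t39 : Tr := .c 1 r75 (.c 2 r76 (.c 5 r77 .e))
noncomputable def q103 : Tr := .c 4 (.l 13) (.c 6 (.l 13) .e)
noncomputable def q104 : Tr := .c 4 (.l 13) .e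
noncomputable def q105 : Tr := .c 0 (.l 61) .e
noncomputable def r78 : Tr := .c 1 q103 (.c 2 q104 (.c 6 q105 .e))
noncomputable def t40 : Tr := .c 3 r78 (.c 4 r68 (.c 6 r69 .e))
noncomputable def q106 : Tr := .c 2 (.l 42) .e
noncomputable def r79 : Tr := .c 0 q34 (.c 2 q104 (.c 4 q106 (.c 6 q105 .e)))
noncomputable def t41 : Tr := .c 3 r78 (.c 4 r68 (.c 5 r79 .e))
noncomputable def q107 : Tr := .c 4 (.l 28) .e
noncomputable def q108 : Tr := .c 2 (.l 41) .e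
noncomputable def q109 : Tr := .c 0 (.l 62) .e
noncomputable def r80 : Tr := .c 0 q36 (.c 2 q107 (.c 4 q108 (.c 6 q109 .e)))
noncomputable def t42 : Tr := .c 5 r80 (.c 6 r69 .e)
noncomputable def q110 : Tr := .c 0 (.l 63) .e
noncomputable def q111 : Tr := .c 0 (.l 64) (.c 1 (.l 64) (.c 3 (.l 64) (.c 5 (.l 64) .e)))
noncomputable def r81 : Tr := .c 5 q110 (.c 6 q111 .e)
noncomputable def q112 : Tr := .c 1 (.l 65) .e
noncomputable def q113 : Tr := .c 1 (.l 66) (.c 5 (.l 66) .e)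
noncomputable def r82 : Tr := .c 3 q112 (.c 4 q113 (.c 5 q110 .e))
noncomputable def q114 : Tr := .c 3 (.l 67) .e
noncomputable def q115 : Tr := .c 3 (.l 67) (.c 5 (.l 67) .e)
noncomputable def r83 : Tr := .c 1 q114 (.c 2 q115 (.c 5 q110 .e))
noncomputable def q116 : Tr := .c 5 (.l 68) .e
noncomputable def r84 : Tr := .c 0 q116 (.c 1 q114 (.c 3 q112 (.c 5 q110 .e)))
noncomputable def t43 : Tr := .c 0 r81 (.c 2 r82 (.c 4 r83 (.c 6 r84 .e)))
noncomputable def q117 : Tr := .c 0 (.l 69) .e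
noncomputable def q118 : Tr := .c 0 (.l 0) (.c 1 (.l 0) (.c 3 (.l 0) (.c 5 (.l 0) .e)))
noncomputable def r85 : Tr := .c 5 q117 (.c 6 q118 .e)
noncomputable def q119 : Tr := .c 1 (.l 46) .e
noncomputable def r86 : Tr := .c 3 q119 (.c 4 q80 (.c 6 q118 .e))
noncomputable def r87 : Tr := .c 1 q20 (.c 2 q41 (.c 6 q118 .e))
noncomputable def r88 : Tr := .c 0 q1 (.c 2 q41 (.c 4 q80 (.c 6 q118 .e)))
noncomputable def t44 : Tr := .c 0 r85 (.c 1 r86 (.c 3 r87 (.c 5 r88 .e)))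
noncomputable def q120 : Tr := .c 1 (.l 43) .e
noncomputable def q121 : Tr := .c 0 (.l 44) (.c 1 (.l 44) (.c 3 (.l 44) (.c 5 (.l 44) .e)))
noncomputable def r89 : Tr := .c 3 q120 (.c 4 q75 (.c 6 q121 .e))
noncomputable def q122 : Tr := .c 0 (.l 70) .e
noncomputable def r90 : Tr := .c 3 q120 (.c 4 q75 (.c 5 q122 .e))
noncomputable def q123 : Tr := .c 3 (.l 49) .e
noncomputable def r91 : Tr := .c 0 q77 (.c 1 q123 (.c 3 q120 (.c 5 q122 .e)))
noncomputable def t45 : Tr := .c 1 r89 (.c 2 r90 (.c 6 r91 .e))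
noncomputable def q124 : Tr := .c 0 (.l 71) .e
noncomputable def r92 : Tr := .c 3 q119 (.c 4 q80 (.c 5 q124 .e))
noncomputable def t46 : Tr := .c 1 r86 (.c 2 r92 (.c 5 r88 .e))
noncomputable def q125 : Tr := .c 3 (.l 6) .e
noncomputable def q126 : Tr := .c 3 (.l 6) (.c 5 (.l 6) .e)
noncomputable def q127 : Tr := .c 0 (.l 72) .e
noncomputable def r93 : Tr := .c 1 q125 (.c 2 q126 (.c 5 q127 .e))
noncomputable def q128 : Tr := .c 1 (.l 51) .e
noncomputable def r94 : Tr := .c 0 q44 (.c 1 q125 (.c 3 q128 (.c 5 q127 .e)))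
noncomputable def t47 : Tr := .c 3 r87 (.c 4 r93 (.c 6 r94 .e))
noncomputable def t48 : Tr := .c 3 r87 (.c 4 r93 (.c 5 r88 .e))
noncomputable def q129 : Tr := .c 3 (.l 32) .e
noncomputable def q130 : Tr := .c 1 (.l 50) .e
noncomputable def q131 : Tr := .c 0 (.l 73) .e
noncomputable def r95 : Tr := .c 0 q54 (.c 1 q129 (.c 3 q130 (.c 5 q131 .e)))
noncomputable def t49 : Tr := .c 5 r88 (.c 6 r95 .e)

/-- the diagram -/
noncomputable def T : Tr := (.c 0 (.c 5 (.c 0 t0 (.c 2 t1 (.c 4 t2 (.c 6 t3 .e)))) (.c 6 (.c 0 t4 (.c 1 t5 (.c 3 t6 (.c 5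
t7 .e)))) .e)) (.c 1 (.c 3 (.c 1 t8 (.c 2 t9 (.c 6 t10 .e))) (.c 4 (.c 1 t11 (.c 2 t12 (.c 5
t13 .e))) (.c 6 (.c 0 t14 (.c 1 t11 (.c 3 t15 (.c 5 t13 .e)))) .e))) (.c 2 (.c 3 (.c 1 t16 (.c
2 t17 (.c 6 t18 .e))) (.c 4 (.c 1 t19 (.c 2 t20 (.c 5 t21 .e))) (.c 5 (.c 0 t22 (.c 2 t17 (.c 4
t23 (.c 6 t18 .e)))) .e))) (.c 3 (.c 1 (.c 3 t24 (.c 4 t25 (.c 6 t26 .e))) (.c 2 (.c 3 t24 (.c
4 t25 (.c 5 t27 .e))) (.c 6 (.c 0 t28 (.c 1 t29 (.c 3 t24 (.c 5 t27 .e)))) .e))) (.c 4 (.c 1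
(.c 3 t30 (.c 4 t31 (.c 6 t32 .e))) (.c 2 (.c 3 t30 (.c 4 t31 (.c 5 t33 .e))) (.c 5 (.c 0 t34
(.c 2 t35 (.c 4 t31 (.c 6 t32 .e)))) .e))) (.c 5 (.c 0 (.c 5 t36 (.c 6 t37 .e)) (.c 2 (.c 3 t38
(.c 4 t39 (.c 5 t36 .e))) (.c 4 (.c 1 t40 (.c 2 t41 (.c 5 t36 .e))) (.c 6 (.c 0 t42 (.c 1 t40
(.c 3 t38 (.c 5 t36 .e)))) .e)))) (.c 6 (.c 0 (.c 5 t43 (.c 6 t44 .e)) (.c 1 (.c 3 t45 (.c 4
t46 (.c 6 t44 .e))) (.c 3 (.c 1 t47 (.c 2 t48 (.c 6 t44 .e))) (.c 5 (.c 0 t49 (.c 2 t48 (.c 4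
t46 (.c 6 t44 .e)))) .e)))) .e)))))))

end Vale.Agent.P032.H800.W30.B
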